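import Vale.Agent.P235.K5.Wagner

/-!
# P235-K5, Wagner's theorem, row (W7): the second stage (helper666)
-/

namespace Vale.Agent.P235.K5.H666

open SimpleGraph Vale.Agent.P235.H134 Vale.Agent.P235.H56 Vale.Agent.P235.K5.W

variable {V : Type} {G : SimpleGraph V}

theorem ad_symm {X Y : Set V} (h : Ad G X Y) : Ad G Y X := by
  obtain ⟨x, hx, y, hy, h⟩ := h
  exact ⟨y, hy, x, hx, h.symm⟩

theorem cn_ne {X : Set V} (h : Cn G X) : X.Nonempty := by
  obtain ⟨x⟩ := h.nonempty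
  exact ⟨x.1, x.2⟩

theorem cn_single (x : V) : Cn G {x} := by
  have : Nonempty ({x} : Set V) := ⟨⟨x, rfl⟩⟩
  have : Subsingleton ({x} : Set V) := ⟨fun a b => Subtype.ext (a.2.trans b.2.symm)⟩
  exact ⟨SimpleGraph.Preconnected.of_subsingleton⟩

theorem cn_union {X Y : Set V} (hX : Cn G X) (hY : Cn G Y) (h : Ad G X Y) : Cn G (X ∪ Y) := by
  obtain ⟨x, hx, y, hy, h⟩ := h
  exact connected_induce_union hX.preconnected hY.preconnected hx hy h

theorem stageTwo (h3 : CentreStmt) (h4 : LocalStmt) (h5 : LocalTriStmt) : StageTwoStmt := by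
  intro V _ G A B hM iA iB X Y hS x0 x1 y1 y2 n5 n8
  have key : ∀ j, ∃ b ∈ B j, ∀ C : Set V, C ⊆ B j → b ∉ C → Cn G C → ∀ i k, i ≠ k →
      Ad G C (A i) → Ad G C (A k) → False := by
    intro j
    have hne : ∀ i, (B j ∩ {v | ∃ a ∈ A i, G.Adj v a}).Nonempty := by
      intro i
      obtain ⟨a, ha, b, hb, hab⟩ := hM.adj i j
      exact ⟨b, hb, a, ha, hab.symm⟩
    rcases h3 V G (B j) (fun i => {v | ∃ a ∈ A i, G.Adj v a}) (hM.connB j) hne with h | h | h
    · obtain ⟨U, W, p, q, r, hUW, hpq, hqr, hpr, hp, hq, hq', hr⟩ := h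
      have t : ∀ {S : Set V} {i : Fin 3}, (S ∩ {v | ∃ a ∈ A i, G.Adj v a}).Nonempty →
          Ad G S (A i) := by
        rintro S i ⟨v, hv, a, ha, hva⟩
        exact ⟨v, hv, a, ha, hva⟩
      rcases h4 V G A B hM X Y hS x0 x1 y1 y2 j U W hUW p q q r hpq (t hp) (t hq) hqr (t hq')
        (t hr) with h | h
      · exact (n5 h).elim
      · exact (n8 h).elim
    · obtain ⟨U, hU, hN⟩ := h
      have t : ∀ i, Ad G (U i) (A i) := by
        intro i
        obtain ⟨v, hv, a, ha, hva⟩ := hN i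
        exact ⟨v, hv, a, ha, hva⟩
      rcases h5 V G A B hM X Y hS x0 x1 y1 y2 j U hU t with h | h
      · exact (n5 h).elim
      · exact (n8 h).elim
    · obtain ⟨b, hb, h⟩ := h
      refine ⟨b, hb, fun C hC hbC cC i k hik hi hk => h C hC hbC cC i k hik ⟨?_, ?_⟩⟩
      · obtain ⟨v, hv, a, ha, hva⟩ := hi
        exact ⟨v, hv, a, ha, hva⟩
      · obtain ⟨v, hv, a, ha, hva⟩ := hk
        exact ⟨v, hv, a, ha, hva⟩
  choose b hb hc using key
  have bne : ∀ i j x, x ∈ A i → x ∉ B j := fun i j x hx hx' =>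
    (Set.disjoint_left.1 (hM.dAB i j)) hx hx'
  have bbe : ∀ i j x, x ∈ B i → x ∈ B j → i = j := fun i j x hx hx' => by
    by_contra h
    exact (Set.disjoint_left.1 (hM.dB i j h)) hx hx'
  have aae : ∀ i j x, x ∈ A i → x ∈ A j → i = j := fun i j x hx hx' => by
    by_contra h
    exact (Set.disjoint_left.1 (hM.dA i j h)) hx hx'
  let D : Fin 3 → Set V := fun i => {x | x ∈ A i ∨ ∃ j, ∃ C : Set V, C ⊆ B j ∧ b j ∉ C ∧ Cn G C ∧
    Ad G C (A i) ∧ x ∈ C}
  refine ⟨b, D, ?_, ?_, ?_, ?_, ?_⟩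
  · intro i j h
    exact bbe i j (b i) (hb i) (h ▸ hb j)
  · intro i
    obtain ⟨a, ha⟩ := cn_ne (hM.connA i)
    refine induce_connected_of_patches a (Or.inl ha) ?_
    rintro v (hv | ⟨j, C, hC, hbC, cC, aC, hv⟩)
    · exact ⟨A i, fun x hx => Or.inl hx, ha, hv, (hM.connA i).preconnected _ _⟩
    · exact ⟨A i ∪ C, Set.union_subset (fun x hx => Or.inl hx)
        (fun x hx => Or.inr ⟨j, C, hC, hbC, cC, aC, hx⟩), Or.inl ha, Or.inr hv,
        (cn_union (hM.connA i) cC (ad_symm aC)).preconnected _ _⟩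
  · intro i k hik
    rw [Set.disjoint_left]
    rintro x (hx | ⟨j, C, hC, hbC, cC, aC, hx⟩) (hx' | ⟨j', C', hC', hbC', cC', aC', hx'⟩)
    · exact hik (aae i k x hx hx')
    · exact bne i j' x hx (hC' hx')
    · exact bne k j x hx' (hC hx)
    · have hj := bbe j j' x (hC hx) (hC' hx')
      subst hj
      refine hc j (C ∪ C') (Set.union_subset hC hC') (fun h => h.elim hbC hbC') ?_ i k hik ?_ ?_
      · exact induce_union_connected cC.preconnected cC'.preconnected ⟨x, hx, hx'⟩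
      · obtain ⟨u, hu, v, hv, h⟩ := aC
        exact ⟨u, Or.inl hu, v, hv, h⟩
      · obtain ⟨u, hu, v, hv, h⟩ := aC'
        exact ⟨u, Or.inr hu, v, hv, h⟩
  · rintro i j (hx | ⟨j', C, hC, hbC, cC, aC, hx⟩)
    · exact bne i j _ hx (hb j)
    · have hj := bbe j j' _ (hb j) (hC hx)
      subst hj
      exact hbC hx
  · rintro i x (hx | ⟨j, C, hC, hbC, cC, aC, hx⟩) y hxy
    · rcases hM.cover y with ⟨k, hy⟩ | ⟨k, hy⟩
      · by_cases hik : i = k
        · subst hik
          exact Or.inl (Or.inl hy)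
        · exact (iA i k hik ⟨x, hx, y, hy, hxy⟩).elim
      · by_cases hyb : y = b k
        · exact Or.inr ⟨k, hyb⟩
        · refine Or.inl (Or.inr ⟨k, {y}, Set.singleton_subset_iff.2 hy, ?_, cn_single y, ?_, rfl⟩)
          · exact fun h => hyb (Set.mem_singleton_iff.1 h).symm
          · exact ⟨y, rfl, x, hx, hxy.symm⟩
    · rcases hM.cover y with ⟨k, hy⟩ | ⟨k, hy⟩
      · by_cases hik : i = k
        · subst hik
          exact Or.inl (Or.inl hy)
        · exact (hc j C hC hbC cC i k hik aC ⟨x, hx, y, hy, hxy⟩).elim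
      · by_cases hjk : j = k
        · subst hjk
          by_cases hyb : y = b j
          · exact Or.inr ⟨j, hyb⟩
          · refine Or.inl (Or.inr ⟨j, C ∪ {y}, ?_, ?_, ?_, ?_, Or.inr rfl⟩)
            · exact Set.union_subset hC (Set.singleton_subset_iff.2 hy)
            · exact fun h => h.elim hbC fun h => hyb (Set.mem_singleton_iff.1 h).symm
            · exact cn_union cC (cn_single y) ⟨x, hx, y, rfl, hxy⟩
            · obtain ⟨u, hu, v, hv, h⟩ := aC
              exact ⟨u, Or.inl hu, v, hv, h⟩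
        · exact (iB j k hjk ⟨x, hC hx, y, hy, hxy⟩).elim

end Vale.Agent.P235.K5.H666
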